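import Vale.Agent.P140.Solution

/-!
P140: uniqueness for spatially homogeneous data with a finite third moment, among solutions that
may depend on position.
-/

namespace Vale.Agent.Results.P140.HomogeneousData

open MeasureTheory
open Vale.Agent.P140.Homog

theorem result :
    ∀ f₀ : Vel → ℝ, Measurable f₀ → (∀ v, 0 ≤ f₀ v) →
      Integrable (fun v => f₀ v * (1 + ‖v‖ ^ 3)) →
      ∃ g : ℝ → Vel → ℝ, IsRenormSol f₀ (fun t _ v => g t v) ∧
        ∀ F : ℝ → Pos → Vel → ℝ, IsRenormSol f₀ F → ∀ t : ℝ, 0 ≤ t →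
          (fun p : Pos × Vel => F t p.1 p.2) =ᵐ[volume] (fun p => g t p.2) ∧
            ∫ p : Pos × Vel, ‖p.2‖ ^ 2 * F t p.1 p.2 = ∫ p : Pos × Vel, ‖p.2‖ ^ 2 * f₀ p.2 :=
  fun f₀ hm h0 hi =>
    let d : Datum := ⟨f₀, hm, h0, hi⟩
    ⟨d.gR, d.isRenormSol_solX, fun _ hF _ ht => ⟨IsRenormSol.eq_gR (d := d) hF ht, IsRenormSol.energy_eq (d := d) hF ht⟩⟩

end Vale.Agent.Results.P140.HomogeneousData
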